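import Vale.Agent.Lib.P089.Interface2

/-!
# P089, F3: active copies are isolated components of the link graph

`F3_step`: a link at a vertex of an active copy is an edge of this copy.
-/

namespace P089

open scoped Classical

section

variable {S : Type} [Fintype S] {V : Type} {Pg : PG S} {act : V → S → V}
  {ω : V → Option (Finset S)}

theorem F3_mem_ty {x : Pg.P} {s : S} : s ∈ Pg.ty x ↔ (Pg.nb x s).isSome := by
  simp [PG.ty]

theorem F3_active_self {v : V} {x : Pg.P} (h : Active Pg act ω v x) : ω v = some (Pg.ty x) :=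
  h [] x rfl

theorem F3_active_nb {v : V} {x y : Pg.P} {s : S} (h : Active Pg act ω v x)
    (hs : Pg.nb x s = some y) : Active Pg act ω (act v s) y := by
  intro w z hw
  have h1 : walk Pg.nb x (s :: w) = some z := by
    simp [walk, hs, hw]
  exact h (s :: w) z h1

theorem F3_used_of_active {v : V} {x : Pg.P} {s : S} (h : Active Pg act ω v x) :
    used ω v s ↔ (Pg.nb x s).isSome := by
  rw [← F3_mem_ty]
  constructor
  · rintro ⟨t, ht, hs⟩
    rw [F3_active_self h] at ht
    rw [Option.some.inj ht]
    exact hs
  · intro hs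
    exact ⟨_, F3_active_self h, hs⟩

theorem F3_link_iff {v : V} {x : Pg.P} {s : S} (h : Active Pg act ω v x) :
    link act ω v s ↔ (Pg.nb x s).isSome := by
  constructor
  · intro hl
    exact (F3_used_of_active h).1 hl.1
  · intro hs
    obtain ⟨y, hy⟩ := Option.isSome_iff_exists.1 hs
    refine ⟨(F3_used_of_active h).2 hs, (F3_used_of_active (F3_active_nb h hy)).2 ?_⟩
    rw [Pg.symm x s y hy]
    rfl

/-- a link at a vertex of an active copy is an edge of this copy -/
theorem F3_step {v : V} {x : Pg.P} {s : S} (h : Active Pg act ω v x) (hl : link act ω v s) :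
    ∃ y, Pg.nb x s = some y ∧ Active Pg act ω (act v s) y ∧ Pg.L y = Pg.L x := by
  obtain ⟨y, hy⟩ := Option.isSome_iff_exists.1 ((F3_link_iff h).1 hl)
  exact ⟨y, hy, F3_active_nb h hy, Pg.L_nb x s y hy⟩

theorem F3_link_symm (hinv : ∀ v s, act (act v s) s = v) {v : V} {s : S}
    (h : link act ω v s) : link act ω (act v s) s := by
  refine ⟨h.2, ?_⟩
  rw [hinv]
  exact h.1

end

end P089
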