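import Vale.Agent.Lib.P089.F.F3.Base

/-!
# P089, F3: finite sets of vertices in active copies of large girth span forests
-/

namespace P089

open scoped Classical

/-- consecutive colours -/
def F3_word {S : Type} (s : ℕ → S) : ℕ → ℕ → List S
  | _, 0 => []
  | i, n + 1 => s i :: F3_word s (i + 1) n

theorem F3_word_length {S : Type} (s : ℕ → S) (n i : ℕ) : (F3_word s i n).length = n := by
  induction n generalizing i with
  | zero => rfl
  | succ n ih => simp [F3_word, ih]

theorem F3_word_red {S : Type} {s : ℕ → S} (h : ∀ n, s (n + 1) ≠ s n) (n i : ℕ) :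
    Red (F3_word s i n) := by
  induction n generalizing i with
  | zero => exact List.isChain_nil
  | succ n ih =>
    unfold Red F3_word
    rw [List.isChain_cons]
    refine ⟨fun y hy => ?_, ih (i + 1)⟩
    cases n with
    | zero => simp [F3_word] at hy
    | succ n =>
      simp only [F3_word, List.head?_cons, Option.mem_some_iff] at hy
      rw [← hy]
      exact (h i).symm

theorem F3_word_go {S V : Type} {act : V → S → V} {s : ℕ → S} {v : ℕ → V}
    (h : ∀ n, v (n + 1) = act (v n) (s n)) (n i : ℕ) :
    go act (v i) (F3_word s i n) = v (i + n) := by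
  induction n generalizing i with
  | zero => rfl
  | succ n ih =>
    have h1 : go act (v i) (F3_word s i (n + 1)) = go act (v (i + 1)) (F3_word s (i + 1) n) := by
      rw [h i]
      rfl
    rw [h1, ih (i + 1)]
    congr 1
    omega

theorem F3_word_walk {S V : Type} [Fintype S] {Pg : PG S} {act : V → S → V}
    {ω : V → Option (Finset S)} {s : ℕ → S} {v : ℕ → V}
    (h : ∀ n, v (n + 1) = act (v n) (s n)) (hl : ∀ n, link act ω (v n) (s n)) (n i : ℕ)
    {x : Pg.P} (hx : Active Pg act ω (v i) x) :
    ∃ y, walk Pg.nb x (F3_word s i n) = some y := by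
  induction n generalizing i x with
  | zero => exact ⟨x, rfl⟩
  | succ n ih =>
    obtain ⟨y, hy, hay, -⟩ := F3_step hx (hl i)
    rw [← h i] at hay
    obtain ⟨z, hz⟩ := ih (i + 1) hay
    exact ⟨z, by simp [F3_word, walk, hy, hz]⟩

/-- a leaf -/
theorem F3_leaf {S V : Type} [Fintype S] {Pg : PG S} {act : V → S → V} (M : Model Pg V act)
    (ω : V → Option (Finset S)) (K : ℕ) (F : Finset V)
    (hF : ∀ v ∈ F, ∃ x, Active Pg act ω v x ∧ K ≤ Pg.L x) (hK : F.card ≤ K)
    (hne : F.Nonempty) :
    ∃ v ∈ F, ((Finset.univ : Finset S).filter fun s => link act ω v s ∧ act v s ∈ F).card ≤ 1 := by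
  by_contra hcon
  push Not at hcon
  have h2 : ∀ v ∈ F, ∀ s : S, ∃ s', s' ≠ s ∧ link act ω v s' ∧ act v s' ∈ F := by
    intro v hv s
    have h3 := hcon v hv
    obtain ⟨s', hs', hne'⟩ := Finset.exists_mem_ne h3 s
    rw [Finset.mem_filter] at hs'
    exact ⟨s', hne', hs'.2⟩
  let T : Type := {p : V × S // p.1 ∈ F ∧ link act ω p.1 p.2 ∧ act p.1 p.2 ∈ F}
  have hstep : ∀ t : T, ∃ t' : T, t'.1.1 = act t.1.1 t.1.2 ∧ t'.1.2 ≠ t.1.2 := by
    rintro ⟨⟨v, s⟩, hv, hl, hvs⟩
    obtain ⟨s', hs', hl', ha'⟩ := h2 (act v s) hvs s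
    exact ⟨⟨(act v s, s'), hvs, hl', ha'⟩, rfl, hs'⟩
  choose nxt hn1 hn2 using hstep
  obtain ⟨v0, hv0⟩ := hne
  have hpos : 0 < ((Finset.univ : Finset S).filter
      fun s => link act ω v0 s ∧ act v0 s ∈ F).card := by
    have := hcon v0 hv0
    omega
  obtain ⟨s0, hs0⟩ := Finset.card_pos.1 hpos
  rw [Finset.mem_filter] at hs0
  let t0 : T := ⟨(v0, s0), hv0, hs0.2⟩
  let st : ℕ → T := fun n => Nat.rec t0 (fun _ t => nxt t) n
  let v : ℕ → V := fun n => (st n).1.1
  let s : ℕ → S := fun n => (st n).1.2
  have hv : ∀ n, v (n + 1) = act (v n) (s n) := fun n => hn1 (st n)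
  have hs : ∀ n, s (n + 1) ≠ s n := fun n => hn2 (st n)
  have hl : ∀ n, link act ω (v n) (s n) := fun n => (st n).2.2.1
  have hvF : ∀ n, v n ∈ F := fun n => (st n).2.1
  obtain ⟨i, hi, j, hj, hij, hvij⟩ := Finset.exists_ne_map_eq_of_card_lt_of_maps_to
    (s := Finset.range (F.card + 1)) (t := F) (by simp) (f := v) (fun n _ => hvF n)
  have key : ∀ i j, i < F.card + 1 → j < F.card + 1 → i < j → v i = v j → False := by
    intro i j _ hj hij hvij
    obtain ⟨x, hx, hKx⟩ := hF (v i) (hvF i)
    obtain ⟨y, hy⟩ := F3_word_walk hv hl (j - i) i hx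
    have h3 := F3_word_go hv (j - i) i
    have h4 : i + (j - i) = j := by omega
    rw [h4, ← hvij] at h3
    have h5 : y = x := (M.full (v i) x _ y hy).1 h3
    rw [h5] at hy
    have h6 := Pg.girth x _ (F3_word_red hs (j - i) i) (by
      intro h0
      have := F3_word_length s (j - i) i
      rw [h0] at this
      simp at this
      omega) hy
    rw [F3_word_length] at h6
    have h7 := Pg.L_pos x
    omega
  rw [Finset.mem_range] at hi hj
  rcases lt_or_gt_of_ne hij with h | h
  · exact key i j hi hj h hvij
  · exact key j i hj hi h hvij.symm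

theorem F3_forest {S V : Type} [Fintype S] {Pg : PG S} {act : V → S → V} (M : Model Pg V act)
    (ω : V → Option (Finset S)) (K : ℕ) (F : Finset V)
    (hF : ∀ v ∈ F, ∃ x, Active Pg act ω v x ∧ K ≤ Pg.L x) (hK : F.card ≤ K) :
    ldarts act ω F ≤ 2 * F.card := by
  have key : ∀ n : ℕ, ∀ F : Finset V, F.card = n →
      (∀ v ∈ F, ∃ x, Active Pg act ω v x ∧ K ≤ Pg.L x) → F.card ≤ K →
      ldarts act ω F ≤ 2 * F.card := by
    intro n
    induction n with
    | zero =>
      intro F hn _ _
      rw [Finset.card_eq_zero] at hn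
      subst hn
      simp [ldarts]
    | succ n ih =>
      intro F hn hF hK
      have hne : F.Nonempty := by
        rw [← Finset.card_pos]
        omega
      obtain ⟨v, hv, hleaf⟩ := F3_leaf M ω K F hF hK hne
      have hc : (F.erase v).card = n := by
        rw [Finset.card_erase_of_mem hv, hn]
        rfl
      have h1 := ih (F.erase v) hc (fun u hu => hF u (Finset.mem_of_mem_erase hu)) (by omega)
      set A := (Finset.univ : Finset S).filter fun s => link act ω v s ∧ act v s ∈ F with hA
      have h2 : ((F ×ˢ (Finset.univ : Finset S)).filter fun p => link act ω p.1 p.2 ∧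
            act p.1 p.2 ∈ F) ⊆
          (((F.erase v) ×ˢ (Finset.univ : Finset S)).filter fun p => link act ω p.1 p.2 ∧
            act p.1 p.2 ∈ F.erase v) ∪ (A.image (fun s => (v, s)) ∪
              A.image (fun s => (act v s, s))) := by
        rintro ⟨u, s⟩ hp
        rw [Finset.mem_filter, Finset.mem_product] at hp
        obtain ⟨⟨hu, -⟩, hl, hus⟩ := hp
        simp only at hu hl hus
        by_cases huv : u = v
        · refine Finset.mem_union_right _ (Finset.mem_union_left _ ?_)
          rw [Finset.mem_image]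
          refine ⟨s, ?_, by rw [huv]⟩
          rw [hA, Finset.mem_filter, ← huv]
          exact ⟨Finset.mem_univ _, hl, hus⟩
        · by_cases huv' : act u s = v
          · refine Finset.mem_union_right _ (Finset.mem_union_right _ ?_)
            rw [Finset.mem_image]
            have h3 : act v s = u := by rw [← huv', M.inv]
            refine ⟨s, ?_, by rw [h3]⟩
            rw [hA, Finset.mem_filter, h3]
            refine ⟨Finset.mem_univ _, ?_, hu⟩
            rw [← huv']
            exact F3_link_symm M.inv hl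
          · refine Finset.mem_union_left _ ?_
            rw [Finset.mem_filter, Finset.mem_product]
            exact ⟨⟨Finset.mem_erase.2 ⟨huv, hu⟩, Finset.mem_univ _⟩, hl,
              Finset.mem_erase.2 ⟨huv', hus⟩⟩
      have h3 := (Finset.card_le_card h2).trans (Finset.card_union_le _ _)
      have h4 := Finset.card_union_le (A.image (fun s => (v, s))) (A.image (fun s => (act v s, s)))
      have h5 : (A.image (fun s => (v, s))).card ≤ 1 := Finset.card_image_le.trans hleaf
      have h6 : (A.image (fun s => (act v s, s))).card ≤ 1 := Finset.card_image_le.trans hleaf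
      unfold ldarts at h1 ⊢
      rw [hn]
      rw [hc] at h1
      omega
  exact key F.card F rfl hF hK

end P089
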